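import Mathlib

/-!
# S0171 (ℓ₁ has metric Markov cotype 2) — shared definitions

Blueprint: `notes/S0171_plan.md`.  Everything lives in `Crest.Agent.Helper75.MC`.
-/

set_option autoImplicit false

namespace Crest.Agent.Helper75.MC

open Finset

/-- Indicator of membership of the state `i` in the cut `T` (a subset of the state space). -/
noncomputable def ind {n : ℕ} (T : Finset (Fin n)) (i : Fin n) : ℝ := if i ∈ T then 1 else 0

/-- Entrywise nonnegative, rows sum to one, `w` is stationary. -/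
structure Stoch {n : ℕ} (w : Fin n → ℝ) (K : Matrix (Fin n) (Fin n) ℝ) : Prop where
  nonneg : ∀ i j, 0 ≤ K i j
  row : ∀ i, ∑ j, K i j = 1
  stat : ∀ j, ∑ i, w i * K i j = w j

/-- Reversible stochastic chain with stationary probability vector `w`. -/
structure Chain (n : ℕ) (w : Fin n → ℝ) (A : Matrix (Fin n) (Fin n) ℝ) : Prop where
  w_nonneg : ∀ i, 0 ≤ w i
  w_sum : ∑ i, w i = 1
  A_nonneg : ∀ i j, 0 ≤ A i j
  A_row : ∀ i, ∑ j, A i j = 1
  rev : ∀ i j, w i * A i j = w j * A j i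

/-- The resolvent kernel package: `G = (1 - κ A)⁻¹`, `B = (1 - κ) A G`
(`B` = law of the chain at an independent geometric time `S`, `P(S = s) = (1-κ) κ^(s-1)`). -/
structure Kernel {n : ℕ} (w : Fin n → ℝ) (A : Matrix (Fin n) (Fin n) ℝ) (κ : ℝ)
    (G B : Matrix (Fin n) (Fin n) ℝ) : Prop where
  G_nonneg : ∀ i j, 0 ≤ G i j
  G_row : ∀ i, ∑ j, G i j = 1 / (1 - κ)
  G_rev : ∀ i j, w i * G i j = w j * G j i
  G_eq : G = 1 + κ • (A * G)
  G_eq' : G = 1 + κ • (G * A)
  B_eq : B = (1 - κ) • (A * G)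
  B_eq' : B = (1 - κ) • (G * A)
  B_nonneg : ∀ i j, 0 ≤ B i j
  B_row : ∀ i, ∑ j, B i j = 1
  B_rev : ∀ i j, w i * B i j = w j * B j i
  B_res : B = (1 - κ) • A + κ • (A * B)
  B_pow : ∀ m : ℕ, B = (1 - κ) • ∑ s ∈ Finset.Icc 1 m, κ ^ (s - 1) • A ^ s + κ ^ m • (A ^ m * B)

/-- `pair w K D = ∑ i j, w i K i j D i j` (the `K`-average of a two-point function). -/
noncomputable def pair {n : ℕ} (w : Fin n → ℝ) (K : Matrix (Fin n) (Fin n) ℝ)
    (D : Fin n → Fin n → ℝ) : ℝ :=
  ∑ i, ∑ j, w i * K i j * D i j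

section Hilbert

variable {n : ℕ} {H : Type*} [NormedAddCommGroup H] [InnerProductSpace ℝ H]

/-- `u i = ∑ j, B i j • Φ j` : the `B`-average of the Hilbert-valued function `Φ`. -/
noncomputable def uu (B : Matrix (Fin n) (Fin n) ℝ) (Φ : Fin n → H) (i : Fin n) : H :=
  ∑ j, B i j • Φ j

/-- variance of the cloud `B i ·` around its mean `u i`. -/
noncomputable def sig2 (B : Matrix (Fin n) (Fin n) ℝ) (Φ : Fin n → H) (i : Fin n) : ℝ :=
  ∑ j, B i j * ‖Φ j - uu B Φ i‖ ^ 2

/-- one-step mean square distance from `u i` to `Φ` at the next state. -/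
noncomputable def dd (A B : Matrix (Fin n) (Fin n) ℝ) (Φ : Fin n → H) (i : Fin n) : ℝ :=
  ∑ j, A i j * ‖Φ j - uu B Φ i‖ ^ 2

/-- energy density of `u` at `i`. -/
noncomputable def ee (A B : Matrix (Fin n) (Fin n) ℝ) (Φ : Fin n → H) (i : Fin n) : ℝ :=
  ∑ j, A i j * ‖uu B Φ j - uu B Φ i‖ ^ 2

/-- centred fourth moment of the cloud `B i ·`. -/
noncomputable def Q4 (B : Matrix (Fin n) (Fin n) ℝ) (Φ : Fin n → H) (i : Fin n) : ℝ :=
  ∑ j, B i j * ‖Φ j - uu B Φ i‖ ^ 4

end Hilbert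

section Cut

variable {n : ℕ}

/-- `cu B i T = B i T = ∑_{j ∈ T} B i j` (probability that the cloud of `i` lies in the cut `T`). -/
noncomputable def cu (B : Matrix (Fin n) (Fin n) ℝ) (i : Fin n) (T : Finset (Fin n)) : ℝ :=
  ∑ j, B i j * ind T j

/-- the smoothstep `3p² - 2p³` (= probability that the majority of three independent
Bernoulli(`p`) variables is `1`). -/
noncomputable def Psi (p : ℝ) : ℝ := 3 * p ^ 2 - 2 * p ^ 3

/-- cut (ℓ₁) distance of the cut model with weights `lam`. -/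
noncomputable def cd (lam : Finset (Fin n) → ℝ) (i j : Fin n) : ℝ :=
  ∑ T, lam T * |ind T i - ind T j|

/-- the Hilbert-space vector of state `i` in the cut model (`√`-embedding). -/
noncomputable def cutVec (lam : Finset (Fin n) → ℝ) (i : Fin n) :
    EuclideanSpace ℝ (Finset (Fin n)) :=
  WithLp.toLp 2 (fun T => Real.sqrt (lam T) * ind T i)

end Cut

end Crest.Agent.Helper75.MC
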