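import Crest.Agent.Helper75.MC.Defs

set_option autoImplicit false

namespace Crest.Agent.Helper75.MC

open Finset

variable {n : ℕ}

theorem ind_sq (T : Finset (Fin n)) (i : Fin n) : ind T i ^ 2 = ind T i := by
  unfold ind; split_ifs <;> norm_num

theorem ind_sub_sq (T : Finset (Fin n)) (i j : Fin n) :
    (ind T i - ind T j) ^ 2 = |ind T i - ind T j| := by
  unfold ind; split_ifs <;> norm_num

theorem cutVec_apply (lam : Finset (Fin n) → ℝ) (i : Fin n) (T : Finset (Fin n)) :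
    (cutVec lam i) T = Real.sqrt (lam T) * ind T i := rfl

theorem uu_cutVec_apply (lam : Finset (Fin n) → ℝ) (B : Matrix (Fin n) (Fin n) ℝ) (i : Fin n)
    (T : Finset (Fin n)) :
    (uu B (cutVec lam) i) T = Real.sqrt (lam T) * cu B i T := by
  unfold uu cu
  simp only [WithLp.ofLp_sum, WithLp.ofLp_smul, Finset.sum_apply, Pi.smul_apply, smul_eq_mul,
    cutVec_apply, Finset.mul_sum]
  refine Finset.sum_congr rfl fun j _ => by ring

theorem bridge_dist {lam : Finset (Fin n) → ℝ} (hlam : ∀ T, 0 ≤ lam T) (i j : Fin n) :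
    ‖cutVec lam i - cutVec lam j‖ ^ 2 = cd lam i j := by
  rw [EuclideanSpace.norm_sq_eq]
  unfold cd
  refine Finset.sum_congr rfl fun T _ => ?_
  simp only [PiLp.sub_apply, cutVec_apply, Real.norm_eq_abs, sq_abs]
  rw [← mul_sub, mul_pow, Real.sq_sqrt (hlam T), ind_sub_sq]

theorem bridge_u {lam : Finset (Fin n) → ℝ} (hlam : ∀ T, 0 ≤ lam T)
    (B : Matrix (Fin n) (Fin n) ℝ) (i j : Fin n) :
    ‖uu B (cutVec lam) i - uu B (cutVec lam) j‖ ^ 2
      = ∑ T, lam T * (cu B i T - cu B j T) ^ 2 := by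
  rw [EuclideanSpace.norm_sq_eq]
  refine Finset.sum_congr rfl fun T _ => ?_
  simp only [PiLp.sub_apply, uu_cutVec_apply, Real.norm_eq_abs, sq_abs]
  rw [← mul_sub, mul_pow, Real.sq_sqrt (hlam T)]

theorem bridge_sig {lam : Finset (Fin n) → ℝ} (hlam : ∀ T, 0 ≤ lam T)
    {B : Matrix (Fin n) (Fin n) ℝ} (hB1 : ∀ i, ∑ j, B i j = 1) (i : Fin n) :
    sig2 B (cutVec lam) i = ∑ T, lam T * (cu B i T * (1 - cu B i T)) := by
  unfold sig2
  have h1 : ∀ j, ‖cutVec lam j - uu B (cutVec lam) i‖ ^ 2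
      = ∑ T, lam T * (ind T j - cu B i T) ^ 2 := by
    intro j
    rw [EuclideanSpace.norm_sq_eq]
    refine Finset.sum_congr rfl fun T _ => ?_
    simp only [PiLp.sub_apply, cutVec_apply, uu_cutVec_apply, Real.norm_eq_abs, sq_abs]
    rw [← mul_sub, mul_pow, Real.sq_sqrt (hlam T)]
  simp only [h1, Finset.mul_sum]
  rw [Finset.sum_comm]
  refine Finset.sum_congr rfl fun T _ => ?_
  have h2 : ∑ j, B i j * (lam T * (ind T j - cu B i T) ^ 2)
      = lam T * ((∑ j, B i j * ind T j ^ 2) - 2 * cu B i T * (∑ j, B i j * ind T j)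
          + cu B i T ^ 2 * ∑ j, B i j) := by
    simp only [Finset.mul_sum, ← Finset.sum_sub_distrib, ← Finset.sum_add_distrib]
    refine Finset.sum_congr rfl fun j _ => by ring
  rw [h2, hB1 i]
  have h3 : ∑ j, B i j * ind T j ^ 2 = cu B i T := by
    unfold cu
    exact Finset.sum_congr rfl fun j _ => by rw [ind_sq]
  have h4 : ∑ j, B i j * ind T j = cu B i T := rfl
  rw [h3, h4]
  ring

end Crest.Agent.Helper75.MC
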