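import Crest.Agent.Helper75.MC.Defs
import Crest.Agent.Helper75.MC.Bridge
import Crest.Agent.Helper69.MC.B
import Crest.Agent.Helper12.MC.D
import Crest.Agent.Helper92.MC.F
import Crest.Agent.Helper16.MC.C
import Crest.Agent.Helper62.MC.E

set_option autoImplicit false

namespace Crest.Agent.Helper75.MC

open Finset

variable {n : ℕ}

/-- Jensen for the square: `(∑ b_j d_j)² ≤ ∑ b_j d_j²` for a probability vector `b`. -/
theorem jensen_sq {b d : Fin n → ℝ} (hb0 : ∀ j, 0 ≤ b j) (hb1 : ∑ j, b j = 1) :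
    (∑ j, b j * d j) ^ 2 ≤ ∑ j, b j * d j ^ 2 := by
  have key := Finset.sum_sq_le_sum_mul_sum_of_sq_le_mul (Finset.univ : Finset (Fin n))
    (r := fun j => b j * d j) (f := fun j => b j) (g := fun j => b j * d j ^ 2)
    (fun j _ => hb0 j) (fun j _ => mul_nonneg (hb0 j) (sq_nonneg _))
    (fun j _ => by ring_nf; exact le_refl _)
  simpa [hb1] using key

theorem cd_nonneg {lam : Finset (Fin n) → ℝ} (hlam : ∀ T, 0 ≤ lam T) (i j : Fin n) :
    0 ≤ cd lam i j :=
  Finset.sum_nonneg fun T _ => mul_nonneg (hlam T) (abs_nonneg _)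

theorem cd_symm (lam : Finset (Fin n) → ℝ) (i j : Fin n) : cd lam i j = cd lam j i := by
  unfold cd
  exact Finset.sum_congr rfl fun T _ => by rw [abs_sub_comm]

theorem cd_triangle {lam : Finset (Fin n) → ℝ} (hlam : ∀ T, 0 ≤ lam T) (i j k : Fin n) :
    cd lam i k ≤ cd lam i j + cd lam j k := by
  unfold cd
  rw [← Finset.sum_add_distrib]
  refine Finset.sum_le_sum fun T _ => ?_
  rw [← mul_add]
  exact mul_le_mul_of_nonneg_left (abs_sub_le _ _ _) (hlam T)

theorem cd_sq_triangle {lam : Finset (Fin n) → ℝ} (hlam : ∀ T, 0 ≤ lam T) (i j k : Fin n) :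
    cd lam i k ^ 2 ≤ 2 * cd lam i j ^ 2 + 2 * cd lam j k ^ 2 := by
  have h1 := cd_triangle hlam i j k
  have h0 := cd_nonneg hlam i k
  nlinarith [sq_nonneg (cd lam i j - cd lam j k), cd_nonneg hlam i j, cd_nonneg hlam j k]

/-- The main inequality in the finite cut model. -/
theorem cut_model_main {w : Fin n → ℝ} {A : Matrix (Fin n) (Fin n) ℝ} (hc : Chain n w A)
    {t : ℕ} (ht : 55 ≤ t) {lam : Finset (Fin n) → ℝ} (hlam : ∀ T, 0 ≤ lam T) :
    ∃ g : Fin n → Finset (Fin n) → ℝ,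
      ∑ i, w i * (∑ T, lam T * |ind T i - g i T|) ^ 2
        + t * ∑ i, ∑ j, w i * A i j * (∑ T, lam T * |g i T - g j T|) ^ 2
      ≤ 3024 * ((1 / (t : ℝ)) * ∑ s ∈ Finset.Icc 1 t,
          pair w (A ^ s) (fun i j => cd lam i j ^ 2)) := by
  have htR : (55 : ℝ) ≤ (t : ℝ) := by exact_mod_cast ht
  have htpos : (0 : ℝ) < t := by linarith
  set κ : ℝ := 1 - 2 / (t : ℝ) with hκ
  have h2t : 2 / (t : ℝ) ≤ 2 / 55 := by
    apply div_le_div_of_nonneg_left (by norm_num) (by norm_num) htR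
  have h2t0 : 0 < 2 / (t : ℝ) := by positivity
  have hκ0 : 0 < κ := by rw [hκ]; linarith
  have hκ1 : κ < 1 := by rw [hκ]; linarith
  have hκlb : 53 / 55 ≤ κ := by rw [hκ]; linarith
  obtain ⟨G, B, hK⟩ := Helper69.MC.exists_kernel hc hκ0 hκ1
  set D : Fin n → Fin n → ℝ := fun i j => cd lam i j ^ 2 with hD
  have hD0 : ∀ i j, 0 ≤ D i j := fun i j => sq_nonneg _
  have hDt : ∀ i j k, D i k ≤ 2 * D i j + 2 * D j k := fun i j k => cd_sq_triangle hlam i j k
  have hDs : ∀ i j, D i j = D j i := fun i j => by simp only [hD]; rw [cd_symm]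
  set Dbar : ℝ := (1 / (t : ℝ)) * ∑ s ∈ Finset.Icc 1 t, pair w (A ^ s) D with hDbar
  set Φ := cutVec lam with hΦ
  have hDΦ : (fun i j => (‖Φ i - Φ j‖ ^ 2) ^ 2) = D := by
    funext i j
    simp only [hD, hΦ]
    rw [bridge_dist hlam]
  refine ⟨fun i T => Psi (cu B i T), ?_⟩
  -- abbreviations
  set P2 : ℝ := ∑ i, w i * (ee A B Φ i * sig2 B Φ i) with hP2
  set R4 : ℝ := ∑ i, ∑ j, w i * A i j * ‖uu B Φ j - uu B Φ i‖ ^ 4 with hR4
  set S : ℝ := ∑ i, w i * (sig2 B Φ i * dd A B Φ i) with hS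
  set Qs : ℝ := ∑ i, w i * Q4 B Φ i with hQs
  set Ws : ℝ := ∑ i, w i * ‖Φ i - uu B Φ i‖ ^ 4 with hWs
  have hw := hc.w_nonneg
  -- Step 1 : first term
  have step1 : ∑ i, w i * (∑ T, lam T * |ind T i - Psi (cu B i T)|) ^ 2
      ≤ 81 / 64 * pair w B D := by
    unfold pair
    rw [Finset.mul_sum]
    refine Finset.sum_le_sum fun i _ => ?_
    have h1 := Helper12.MC.cut_close hlam hK.B_nonneg hK.B_row i
    have h0 : 0 ≤ ∑ T, lam T * |ind T i - Psi (cu B i T)| :=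
      Finset.sum_nonneg fun T _ => mul_nonneg (hlam T) (abs_nonneg _)
    have h2 : (∑ T, lam T * |ind T i - Psi (cu B i T)|) ^ 2
        ≤ (9 / 8 * ∑ j, B i j * cd lam i j) ^ 2 := by
      exact pow_le_pow_left₀ h0 h1 2
    have h3 := jensen_sq (d := fun j => cd lam i j) (hK.B_nonneg i) (hK.B_row i)
    have h4 : w i * (∑ T, lam T * |ind T i - Psi (cu B i T)|) ^ 2
        ≤ w i * (81 / 64 * ∑ j, B i j * cd lam i j ^ 2) := by
      apply mul_le_mul_of_nonneg_left _ (hw i)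
      calc (∑ T, lam T * |ind T i - Psi (cu B i T)|) ^ 2
          ≤ (9 / 8 * ∑ j, B i j * cd lam i j) ^ 2 := h2
        _ = 81 / 64 * (∑ j, B i j * cd lam i j) ^ 2 := by ring
        _ ≤ 81 / 64 * ∑ j, B i j * cd lam i j ^ 2 := by
            apply mul_le_mul_of_nonneg_left h3 (by norm_num)
    calc w i * (∑ T, lam T * |ind T i - Psi (cu B i T)|) ^ 2
        ≤ w i * (81 / 64 * ∑ j, B i j * cd lam i j ^ 2) := h4
      _ = 81 / 64 * ∑ j, w i * B i j * D i j := by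
          simp only [hD, Finset.mul_sum]
          refine Finset.sum_congr rfl fun j _ => by ring
  -- Step 2 : gradient term
  have step2 : ∑ i, ∑ j, w i * A i j * (∑ T, lam T * |Psi (cu B i T) - Psi (cu B j T)|) ^ 2
      ≤ 27 / 2 * P2 + 3 * R4 := by
    have hpt : ∀ i j, w i * A i j * (∑ T, lam T * |Psi (cu B i T) - Psi (cu B j T)|) ^ 2
        ≤ 27 / 4 * (w i * A i j * ‖uu B Φ j - uu B Φ i‖ ^ 2 * sig2 B Φ i)
          + 27 / 4 * (w i * A i j * ‖uu B Φ j - uu B Φ i‖ ^ 2 * sig2 B Φ j)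
          + 3 * (w i * A i j * ‖uu B Φ j - uu B Φ i‖ ^ 4) := by
      intro i j
      have h1 := Helper12.MC.cut_grad hlam hK.B_nonneg hK.B_row i j
      rw [← bridge_u hlam B i j, ← bridge_sig hlam hK.B_row i, ← bridge_sig hlam hK.B_row j] at h1
      have hwa : 0 ≤ w i * A i j := mul_nonneg (hw i) (hc.A_nonneg i j)
      have h2 := mul_le_mul_of_nonneg_left h1 hwa
      rw [norm_sub_rev (uu B Φ j) (uu B Φ i)]
      calc w i * A i j * (∑ T, lam T * |Psi (cu B i T) - Psi (cu B j T)|) ^ 2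
          ≤ w i * A i j * (27 / 4 * ‖uu B (cutVec lam) i - uu B (cutVec lam) j‖ ^ 2
              * (sig2 B (cutVec lam) i + sig2 B (cutVec lam) j)
              + 3 * (‖uu B (cutVec lam) i - uu B (cutVec lam) j‖ ^ 2) ^ 2) := h2
        _ = _ := by ring
    calc ∑ i, ∑ j, w i * A i j * (∑ T, lam T * |Psi (cu B i T) - Psi (cu B j T)|) ^ 2
        ≤ ∑ i, ∑ j, (27 / 4 * (w i * A i j * ‖uu B Φ j - uu B Φ i‖ ^ 2 * sig2 B Φ i)
          + 27 / 4 * (w i * A i j * ‖uu B Φ j - uu B Φ i‖ ^ 2 * sig2 B Φ j)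
          + 3 * (w i * A i j * ‖uu B Φ j - uu B Φ i‖ ^ 4)) :=
          Finset.sum_le_sum fun i _ => Finset.sum_le_sum fun j _ => hpt i j
      _ = 27 / 4 * (∑ i, ∑ j, w i * A i j * ‖uu B Φ j - uu B Φ i‖ ^ 2 * sig2 B Φ i)
          + 27 / 4 * (∑ i, ∑ j, w i * A i j * ‖uu B Φ j - uu B Φ i‖ ^ 2 * sig2 B Φ j)
          + 3 * R4 := by
          simp only [Finset.sum_add_distrib, Finset.mul_sum, hR4]
      _ = 27 / 4 * P2 + 27 / 4 * P2 + 3 * R4 := by
          have e1 : ∑ i, ∑ j, w i * A i j * ‖uu B Φ j - uu B Φ i‖ ^ 2 * sig2 B Φ i = P2 := by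
            simp only [hP2, ee, Finset.sum_mul, Finset.mul_sum]
            refine Finset.sum_congr rfl fun i _ => Finset.sum_congr rfl fun j _ => by ring
          have e2 : ∑ i, ∑ j, w i * A i j * ‖uu B Φ j - uu B Φ i‖ ^ 2 * sig2 B Φ j = P2 := by
            rw [Finset.sum_comm]
            simp only [hP2, ee, Finset.sum_mul, Finset.mul_sum]
            refine Finset.sum_congr rfl fun j _ => Finset.sum_congr rfl fun i _ => ?_
            rw [hc.rev i j, norm_sub_rev (uu B Φ j) (uu B Φ i)]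
            ring
          rw [e1, e2]
      _ = 27 / 2 * P2 + 3 * R4 := by ring
  -- Step 3 : Hilbert main
  have step3 := Helper16.MC.hilbert_main hc hκ0 hκ1 hK Φ
  -- Step 4 : moments
  have hBst : Stoch w B := Helper62.MC.stoch_of_kernel hc hK
  have hAst : Stoch w A := by simpa using Helper62.MC.stoch_pow hc 1
  have hQ : Qs ≤ pair w (B * B) D := by
    have := Helper92.MC.Q4_le hw hK.B_nonneg hK.B_row hK.B_rev Φ
    rwa [hDΦ] at this
  have hW : Ws ≤ pair w B D := by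
    have := Helper92.MC.W4_le hw hK.B_nonneg hK.B_row Φ
    rwa [hDΦ] at this
  have hsig : ∑ i, w i * (sig2 B Φ i) ^ 2 ≤ pair w (B * B) D := by
    have := Helper92.MC.sig4_le hw hK.B_nonneg hK.B_row hK.B_rev Φ
    rwa [hDΦ] at this
  have hdd : ∑ i, w i * (dd A B Φ i) ^ 2 ≤ pair w (A * B) D := by
    have := Helper92.MC.dd2_le hc hK.B_nonneg hK.B_row Φ
    rwa [hDΦ] at this
  have hS' : S ≤ 1 / 2 * (∑ i, w i * (sig2 B Φ i) ^ 2) + 1 / 2 * (∑ i, w i * (dd A B Φ i) ^ 2) := by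
    simp only [hS, Finset.mul_sum, ← Finset.sum_add_distrib]
    refine Finset.sum_le_sum fun i _ => ?_
    nlinarith [sq_nonneg (sig2 B Φ i - dd A B Φ i), hw i]
  -- Step 5 : time comparison
  have hBB : pair w (B * B) D ≤ 4 * pair w B D := by
    have := Helper62.MC.pair_mul_le hw hBst hBst hDt
    linarith
  have hAB : pair w (A * B) D ≤ 2 * pair w A D + 2 * pair w B D := Helper62.MC.pair_mul_le hw hAst hBst hDt
  have hA1 : pair w A D ≤ 4 * Dbar := Helper62.MC.pair_one_le hc hD0 hDt hDs (by omega)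
  have hB1 : pair w B D ≤ 22 / 5 * Dbar := Helper62.MC.pair_B_le hc hD0 hDt hDs ht hK
  have hDbar0 : 0 ≤ Dbar := by
    have h := hA1
    have hA0 : 0 ≤ pair w A D := by
      unfold pair
      exact Finset.sum_nonneg fun i _ => Finset.sum_nonneg fun j _ =>
        mul_nonneg (mul_nonneg (hw i) (hc.A_nonneg i j)) (hD0 i j)
    linarith
  -- Step 6 : numbers
  have hkey : (t : ℝ) * (27 / 2 * P2 + 3 * R4) ≤ (1 / κ) * (54 * S + 54 * Qs + 14 * Ws) := by
    have h1 : κ / (1 - κ) = κ * (t : ℝ) / 2 := by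
      rw [hκ]; field_simp; ring
    rw [h1] at step3
    have h2 : (t : ℝ) * (27 / 2 * P2 + 3 * R4)
        = (1 / κ) * (κ * (t : ℝ) / 2 * (27 * P2 + 6 * R4)) := by
      field_simp; ring
    rw [h2]
    exact mul_le_mul_of_nonneg_left step3 (by positivity)
  have hinvκ : 1 / κ ≤ 55 / 53 := by
    rw [div_le_div_iff₀ hκ0 (by norm_num)]
    linarith
  have hSQ0 : 0 ≤ 54 * S + 54 * Qs + 14 * Ws := by
    have hS0 : 0 ≤ S := by
      simp only [hS]
      refine Finset.sum_nonneg fun i _ => mul_nonneg (hw i) (mul_nonneg ?_ ?_)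
      · unfold sig2
        exact Finset.sum_nonneg fun j _ => mul_nonneg (hK.B_nonneg i j) (by positivity)
      · unfold dd
        exact Finset.sum_nonneg fun j _ => mul_nonneg (hc.A_nonneg i j) (by positivity)
    have hQ0 : 0 ≤ Qs := by
      simp only [hQs]
      refine Finset.sum_nonneg fun i _ => mul_nonneg (hw i) ?_
      unfold Q4
      exact Finset.sum_nonneg fun j _ => mul_nonneg (hK.B_nonneg i j) (by positivity)
    have hW0 : 0 ≤ Ws := by
      simp only [hWs]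
      exact Finset.sum_nonneg fun i _ => mul_nonneg (hw i) (by positivity)
    linarith
  have hfin : (1 / κ) * (54 * S + 54 * Qs + 14 * Ws) ≤ 55 / 53 * (9704 / 5 * Dbar) := by
    have hb : 54 * S + 54 * Qs + 14 * Ws ≤ 9704 / 5 * Dbar := by linarith
    calc (1 / κ) * (54 * S + 54 * Qs + 14 * Ws) ≤ 55 / 53 * (54 * S + 54 * Qs + 14 * Ws) :=
          mul_le_mul_of_nonneg_right hinvκ hSQ0
      _ ≤ 55 / 53 * (9704 / 5 * Dbar) := mul_le_mul_of_nonneg_left hb (by norm_num)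
  have hgoal2 : (t : ℝ) * ∑ i, ∑ j, w i * A i j
        * (∑ T, lam T * |Psi (cu B i T) - Psi (cu B j T)|) ^ 2
      ≤ 55 / 53 * (9704 / 5 * Dbar) := by
    calc (t : ℝ) * ∑ i, ∑ j, w i * A i j
          * (∑ T, lam T * |Psi (cu B i T) - Psi (cu B j T)|) ^ 2
        ≤ (t : ℝ) * (27 / 2 * P2 + 3 * R4) := mul_le_mul_of_nonneg_left step2 htpos.le
      _ ≤ (1 / κ) * (54 * S + 54 * Qs + 14 * Ws) := hkey
      _ ≤ 55 / 53 * (9704 / 5 * Dbar) := hfin
  have hgoal1 : ∑ i, w i * (∑ T, lam T * |ind T i - Psi (cu B i T)|) ^ 2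
      ≤ 81 / 64 * (22 / 5 * Dbar) := by
    calc _ ≤ 81 / 64 * pair w B D := step1
      _ ≤ 81 / 64 * (22 / 5 * Dbar) := mul_le_mul_of_nonneg_left hB1 (by norm_num)
  linarith

end Crest.Agent.Helper75.MC
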