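import Crest.Agent.Helper75.MC.Assembly
import Crest.Agent.Helper39.MC.A

set_option autoImplicit false

namespace Crest.Agent.Helper75.MC

open Finset

theorem pair_nonneg {n : ℕ} {w : Fin n → ℝ} (hw : ∀ i, 0 ≤ w i) {K : Matrix (Fin n) (Fin n) ℝ}
    (hK : ∀ i j, 0 ≤ K i j) {D : Fin n → Fin n → ℝ} (hD : ∀ i j, 0 ≤ D i j) : 0 ≤ pair w K D :=
  Finset.sum_nonneg fun i _ => Finset.sum_nonneg fun j _ =>
    mul_nonneg (mul_nonneg (hw i) (hK i j)) (hD i j)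

theorem rhs_eq {n : ℕ} (t : ℕ) (w : Fin n → ℝ) (A : Matrix (Fin n) (Fin n) ℝ)
    (D : Fin n → Fin n → ℝ) :
    ∑ i, ∑ j, w i * ((1 / (t : ℝ)) • ∑ s ∈ Finset.Icc 1 t, A ^ s) i j * D i j
      = (1 / (t : ℝ)) * ∑ s ∈ Finset.Icc 1 t, pair w (A ^ s) D := by
  unfold pair
  simp only [Matrix.smul_apply, Matrix.sum_apply, smul_eq_mul]
  have h1 : ∀ i j, w i * (1 / (t : ℝ) * ∑ s ∈ Finset.Icc 1 t, (A ^ s) i j) * D i j
      = ∑ s ∈ Finset.Icc 1 t, 1 / (t : ℝ) * (w i * (A ^ s) i j * D i j) := by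
    intro i j
    rw [Finset.mul_sum, Finset.mul_sum, Finset.sum_mul]
    exact Finset.sum_congr rfl fun s _ => by ring
  simp only [h1]
  rw [Finset.mul_sum]
  calc ∑ i, ∑ j, ∑ s ∈ Finset.Icc 1 t, 1 / (t : ℝ) * (w i * (A ^ s) i j * D i j)
      = ∑ i, ∑ s ∈ Finset.Icc 1 t, ∑ j, 1 / (t : ℝ) * (w i * (A ^ s) i j * D i j) :=
        Finset.sum_congr rfl fun i _ => Finset.sum_comm
    _ = ∑ s ∈ Finset.Icc 1 t, ∑ i, ∑ j, 1 / (t : ℝ) * (w i * (A ^ s) i j * D i j) :=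
        Finset.sum_comm
    _ = ∑ s ∈ Finset.Icc 1 t, 1 / (t : ℝ) * ∑ i, ∑ j, w i * (A ^ s) i j * D i j := by
        refine Finset.sum_congr rfl fun s _ => ?_
        simp only [Finset.mul_sum]

theorem main (n t : ℕ) (ht : 1 ≤ t)
    (w : Fin n → ℝ) (A : Matrix (Fin n) (Fin n) ℝ) (hw : ∀ i, 0 ≤ w i) (hw1 : ∑ i, w i = 1)
    (hA : ∀ i j, 0 ≤ A i j) (hA1 : ∀ i, ∑ j, A i j = 1) (hrev : ∀ i j, w i * A i j = w j * A j i)
    (x : Fin n → lp (fun _ : ℕ => ℝ) 1) :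
    ∃ y : Fin n → lp (fun _ : ℕ => ℝ) 1,
      ∑ i, w i * dist (x i) (y i) ^ 2 + t * ∑ i, ∑ j, w i * A i j * dist (y i) (y j) ^ 2 ≤
        (12 * Real.sqrt 21) ^ 2 *
          ∑ i, ∑ j, w i * ((1 / (t : ℝ)) • ∑ s ∈ Finset.Icc 1 t, A ^ s) i j * dist (x i) (x j) ^ 2 := by
  have hc : Chain n w A := ⟨hw, hw1, hA, hA1, hrev⟩
  have h3024 : (12 * Real.sqrt 21) ^ 2 = 3024 := by
    rw [mul_pow, Real.sq_sqrt (by norm_num)]; norm_num
  rw [h3024]
  have htpos : (0 : ℝ) < t := by exact_mod_cast ht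
  rw [rhs_eq t w A (fun i j => dist (x i) (x j) ^ 2)]
  by_cases h55 : 55 ≤ t
  · obtain ⟨lam, hlam, hdist, hdec⟩ := Helper39.MC.exists_cut_model x
    obtain ⟨g, hg⟩ := cut_model_main hc h55 hlam
    obtain ⟨y, hy1, hy2⟩ := hdec g
    refine ⟨y, ?_⟩
    have hD : (fun i j => dist (x i) (x j) ^ 2) = fun i j => cd lam i j ^ 2 := by
      funext i j; rw [hdist]
    rw [hD]
    refine le_trans ?_ hg
    have h1 : ∑ i, w i * dist (x i) (y i) ^ 2
        ≤ ∑ i, w i * (∑ T, lam T * |ind T i - g i T|) ^ 2 :=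
      Finset.sum_le_sum fun i _ => mul_le_mul_of_nonneg_left
        (pow_le_pow_left₀ dist_nonneg (hy1 i) 2) (hw i)
    have h2 : ∑ i, ∑ j, w i * A i j * dist (y i) (y j) ^ 2
        ≤ ∑ i, ∑ j, w i * A i j * (∑ T, lam T * |g i T - g j T|) ^ 2 :=
      Finset.sum_le_sum fun i _ => Finset.sum_le_sum fun j _ => mul_le_mul_of_nonneg_left
        (pow_le_pow_left₀ dist_nonneg (hy2 i j) 2) (mul_nonneg (hw i) (hA i j))
    have h3 := mul_le_mul_of_nonneg_left h2 htpos.le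
    linarith
  · have h55 : t < 55 := not_le.mp h55
    refine ⟨x, ?_⟩
    set D : Fin n → Fin n → ℝ := fun i j => dist (x i) (x j) ^ 2 with hD
    have hD0 : ∀ i j, 0 ≤ D i j := fun i j => sq_nonneg _
    have h1 : ∑ i, w i * dist (x i) (x i) ^ 2 = 0 := by simp
    have h2 : ∑ i, ∑ j, w i * A i j * dist (x i) (x j) ^ 2 = pair w A D := rfl
    rw [h1, h2, zero_add]
    have hpA : 0 ≤ pair w A D := pair_nonneg hw hA hD0
    have hsum : pair w A D ≤ ∑ s ∈ Finset.Icc 1 t, pair w (A ^ s) D := by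
      have hmem : 1 ∈ Finset.Icc 1 t := Finset.mem_Icc.mpr ⟨le_refl _, ht⟩
      have := Finset.single_le_sum (f := fun s => pair w (A ^ s) D)
        (fun s _ => pair_nonneg hw (Helper62.MC.stoch_pow hc s).nonneg hD0) hmem
      simpa using this
    have htle : (t : ℝ) ≤ 54 := by exact_mod_cast Nat.lt_succ_iff.mp h55
    have ht1 : (1 : ℝ) ≤ t := by exact_mod_cast ht
    have key : (t : ℝ) * pair w A D ≤ 3024 * (1 / (t : ℝ) * pair w A D) := by
      have : (t : ℝ) * (t : ℝ) ≤ 3024 := by nlinarith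
      have h : (t : ℝ) * pair w A D = (1 / (t : ℝ)) * ((t : ℝ) * (t : ℝ) * pair w A D) := by
        field_simp
      rw [h]
      have : (t : ℝ) * (t : ℝ) * pair w A D ≤ 3024 * pair w A D :=
        mul_le_mul_of_nonneg_right this hpA
      have h' : 3024 * (1 / (t : ℝ) * pair w A D) = (1 / (t : ℝ)) * (3024 * pair w A D) := by ring
      rw [h']
      exact mul_le_mul_of_nonneg_left this (by positivity)
    calc (t : ℝ) * pair w A D ≤ 3024 * (1 / (t : ℝ) * pair w A D) := key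
      _ ≤ 3024 * (1 / (t : ℝ) * ∑ s ∈ Finset.Icc 1 t, pair w (A ^ s) D) := by
          apply mul_le_mul_of_nonneg_left _ (by norm_num)
          exact mul_le_mul_of_nonneg_left hsum (by positivity)

end Crest.Agent.Helper75.MC
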